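import Vale.Agent.P181.BL.Defs
import Vale.Agent.P181.TL.DefsP
import Vale.Agent.P181.PL.Defs

set_option autoImplicit false

/-!
# P181, LL: two long rows and an arbitrary tail, `b ≥ (1 + δ) a`: the literals

All `b` letters except `ε b` are ordinary letters: the frame of two heads makes the tail killed by
the row operators into the rows `≥ 2`; rows `0, 1` are only weights (pigeonhole over row `1`).
-/

open MvPolynomial

namespace Vale.Agent.P181.H382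

open Vale.Agent.P181.T4 (HW rowOp)
open Vale.Agent.P181.H280 (plethMult)
open Vale.Agent.P181.TL (KK dn2)
open Vale.Agent.P181.PL (dn)

/-- The polynomials of row degrees `mu`, of degree `e` in each column, symmetric in the columns,
killed by the row operators into the rows `≥ 2`. -/
def NNc (m : ℕ) (σ : Type) [Fintype σ] (e : ℕ) (mu : Fin m → ℕ) :
    Set (MvPolynomial (Fin m × σ) ℂ) :=
  {f | (∀ v, coeff v f ≠ 0 → ∀ i, ∑ j, v (i, j) = mu i) ∧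
    (∀ v, coeff v f ≠ 0 → ∀ j, ∑ i, v (i, j) = e) ∧
    (∀ s i : Fin m, s < i → 2 ≤ (i : ℕ) → rowOp s i f = 0) ∧
    ∀ π : Equiv.Perm σ, rename (fun p : Fin m × σ => (p.1, π p.2)) f = f}

/-- The same as a subspace. -/
noncomputable def NN (m : ℕ) (σ : Type) [Fintype σ] (e : ℕ) (mu : Fin m → ℕ) :
    Submodule ℂ (MvPolynomial (Fin m × σ) ℂ) where
  carrier := NNc m σ e mu
  zero_mem' := ⟨fun v hv => absurd (coeff_zero v) hv, fun v hv => absurd (coeff_zero v) hv,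
    fun s i _ _ => map_zero _, fun π => map_zero _⟩
  add_mem' := by
    rintro f g ⟨hf1, hf2, hf3, hf4⟩ ⟨hg1, hg2, hg3, hg4⟩
    have h : ∀ v, coeff v (f + g) ≠ 0 → coeff v f ≠ 0 ∨ coeff v g ≠ 0 := by
      intro v hv
      by_contra hc
      rw [not_or, not_not, not_not] at hc
      exact hv (by rw [coeff_add, hc.1, hc.2, add_zero])
    refine ⟨fun v hv => (h v hv).elim (hf1 v) (hg1 v), fun v hv => (h v hv).elim (hf2 v) (hg2 v),
      fun s i hsi hi => ?_, fun π => ?_⟩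
    · rw [map_add, hf3 s i hsi hi, hg3 s i hsi hi, add_zero]
    · rw [map_add, hf4 π, hg4 π]
  smul_mem' := by
    rintro c f ⟨hf1, hf2, hf3, hf4⟩
    have h : ∀ v, coeff v (c • f) ≠ 0 → coeff v f ≠ 0 := by
      intro v hv hc
      exact hv (by rw [coeff_smul, hc, smul_zero])
    refine ⟨fun v hv => hf1 v (h v hv), fun v hv => hf2 v (h v hv),
      fun s i hsi hi => ?_, fun π => ?_⟩
    · rw [map_smul, hf3 s i hsi hi, smul_zero]
    · rw [map_smul, hf4 π]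

/-- The weight `(e B - j - |tau|, j, tau)`. -/
def wj {k : ℕ} (eB j : ℕ) (tau : Fin (k + 1) → ℕ) : Fin (k + 3) → ℕ :=
  Fin.cons (eB - (j + ∑ i, tau i)) (Fin.cons j tau)

/-- **(L1)** the lossless lift, from `BL.OneR` (`r = 2`, `v = 0`, `al = fun _ => tau 0`). The
letter `i : ι` has base `x_0 ^ (e - c i - s i) x_1 ^ (s i)`, the head `h` of row `0` has base
`x_0 ^ (e - r h - P) x_1 ^ P`, of row `1` base `x_1 ^ (e - r h)`. -/
def LowN : Prop := ∀ (k e P : ℕ) (ι η : Type) [Fintype ι] [Fintype η] (g : η → Fin 2)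
  (s : ι → ℕ) (r : η → ℕ) (tau : Fin (k + 1) → ℕ) (KS : Finset (ι → ℕ)),
  (∀ l : Fin 2, ∑ h, (if g h = l then r h else 0) = tau 0) →
  (∀ c ∈ KS, ∑ j, c j = ∑ i, tau i) → (∀ c ∈ KS, ∀ j, c j + s j < P) → (∀ h, P + r h < e) →
  P < e →
  (∀ c ∈ KS, ∀ c' ∈ KS, ∀ j j', s j = s j' → j ≠ j' → c j ≠ c' j') →
  ∑ c ∈ KS, Module.finrank ℂ (KK (k + 1) ι c tau) ≤
    Module.finrank ℂ (NN (k + 3) (ι ⊕ η) e (wj (e * (Fintype.card ι + Fintype.card η))
      (∑ j, s j + ∑ h, (if g h = 0 then P else e - r h) + tau 0) tau))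

/-- **(L2)** pigeonhole over row `1`: `rowOp 0 1 : NN_j → NN_(j-1)`, its kernel is the space of
symmetric highest weight polynomials (`SZ.plethMult_eq_SymHW`, transport to `Fin (card σ)`). -/
def PigN : Prop := ∀ (k e j : ℕ) (σ : Type) [Fintype σ] (tau : Fin (k + 1) → ℕ),
  Module.finrank ℂ (NN (k + 3) σ e (wj (e * Fintype.card σ) j tau)) ≤
    ∑ i ∈ Finset.range (j + 1),
      plethMult (Fintype.card σ) e (k + 3) (wj (e * Fintype.card σ) i tau)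

/-- **(L3)** the contents (pure counting): letter `i` in the window `Y + (i % m) (X + 1) + [0, X]`;
pigeonhole for the sum. -/
def KeyN : Prop := ∀ n m X t F : ℕ, 0 < n → 1 ≤ m → 1 ≤ X → (m * (X + 1) + X) * n ≤ t →
  t / n + m * (X + 1) + 1 ≤ F →
  ∃ KS : Finset (Fin n → ℕ), (∀ c ∈ KS, ∑ i, c i = t) ∧ (∀ c ∈ KS, ∀ i, c i ≤ F) ∧
    (∀ c ∈ KS, ∀ c' ∈ KS, ∀ i i' : Fin n, (i : ℕ) / m = (i' : ℕ) / m → i ≠ i' → c i ≠ c' i') ∧
    X ^ n ≤ (n * X + 1) * KS.card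

/-- **(L4)** flattening (`TL.H639.stable` and `H463.Stable.step`): contents `≤ F` on `n ≥ a`
letters have at least the multiplicity of contents `≥ F` on `a` letters. -/
def FlatN : Prop := ∀ (k a n F : ℕ) (tau : Fin k → ℕ) (f : Fin a → ℕ) (c : Fin n → ℕ), a ≤ n →
  (∀ i, F ≤ f i) → (∀ i, c i ≤ F) → ∑ i, f i = ∑ i, tau i → ∑ i, c i = ∑ i, tau i →
  Module.finrank ℂ (KK k (Fin a) f tau) ≤ Module.finrank ℂ (KK k (Fin n) c tau)

/-- **(L5)** lower bound, from L1 - L4 (heads `η = Fin 2 × Fin h`, `g = Prod.fst`,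
`r (l, x) = (tau 0 + x) / h`, `s i = i / m`, `P = t / a + n / m + 1`). -/
def LowM : Prop := ∀ (k a e n m X h R : ℕ) (tau : Fin (k + 1) → ℕ) (f : Fin a → ℕ), 0 < a →
  1 ≤ m → 1 ≤ X → 1 ≤ h → a ≤ n → (∀ i, (∑ i, tau i) / a ≤ f i) → ∑ i, f i = ∑ i, tau i →
  (m * (X + 1) + X) * n ≤ ∑ i, tau i →
  (∑ i, tau i) / n + m * (X + 1) + 1 ≤ (∑ i, tau i) / a → tau 0 ≤ h * R →
  (∑ i, tau i) / a + n / m + 2 + R ≤ e →
  ∃ i ≤ n * (n / m) + 2 * e * h + tau 0,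
    X ^ n * Module.finrank ℂ (KK (k + 1) (Fin a) f tau) ≤
      (n * X + 1) * ((n * (n / m) + 2 * e * h + tau 0 + 1) *
        plethMult (n + 2 * h) e (k + 3) (wj (e * (n + 2 * h)) i tau))

/-- **(L6)** the core, from `TL.UpB`, `TL.BalB`, L5, `plethMult_pt`, `pos_all` (`m = i = 2`),
`GK.PadPos`, `BAL.Balance`. -/
def CoreN : Prop := ∃ a₀ : ℕ, ∀ (a b k e n m X h R K : ℕ) (lam : Fin (k + 3) → ℕ),
  lam 1 ≤ lam 0 → ∑ i, lam i = a * b → a₀ + e ≤ a → 12 < a → 1 ≤ m → 1 ≤ X → 1 ≤ h → a ≤ n →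
  n + 2 * h + 9 * K = b → e * b ≤ K * (a - 12) →
  (m * (X + 1) + X) * n ≤ dn2 lam → dn2 lam / n + m * (X + 1) + 1 ≤ dn2 lam / a →
  lam 2 ≤ h * R → dn2 lam / a + n / m + 2 + R ≤ e →
  n * (n / m) + 2 * e * h + lam 2 + K * (5 * a - 6) + 9 * a ≤ lam 1 →
  (a + b).choose a * (a + dn2 lam - 1).choose (dn2 lam) * (a * b + 1) ^ 3 ≤ X ^ n →
  plethMult a b (k + 3) lam ≤ plethMult b a (k + 3) lam

/-- **(L7)** the polylogarithmic form, from L6. -/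
def TwoLongN : Prop := ∀ (δ C₀ : ℝ) (c₀ : ℕ), 0 < δ → 0 < C₀ → ∃ (C : ℝ) (c : ℕ), 0 < C ∧
  ∀ (a b k : ℕ) (lam : Fin (k + 3) → ℕ), Antitone lam → ∑ i, lam i = a * b → C ≤ a →
  (1 + δ) * a ≤ b → (b : ℝ) ≤ C₀ * (1 + Real.log a) ^ c₀ * a →
  (a : ℝ) ^ 2 ≤ C₀ * (1 + Real.log a) ^ c₀ * lam 1 →
  C * (1 + Real.log a) ^ c * a ≤ dn2 lam → C * (1 + Real.log a) ^ c * dn2 lam ≤ (a : ℝ) ^ 2 →
  plethMult a b (k + 3) lam ≤ plethMult b a (k + 3) lam

/-- **(L8)** the union (the statement of line RH), from L7, `ThirdLongD`, `FatLog`, `UniX`,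
`PolyS`. -/
def NearAll : Prop := ∀ δ : ℝ, 0 < δ → ∃ (C : ℝ) (c : ℕ), 0 < C ∧ ∀ a b : ℕ, (1 + δ) * a ≤ b →
  ∀ (n : ℕ) (lam : Fin n → ℕ), C * (1 + Real.log a) ^ c * a ≤ (dn lam 2 : ℝ) →
  plethMult a b n lam ≤ plethMult b a n lam

end Vale.Agent.P181.H382
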